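import Vale.Agent.P267.H682.SurfPS
import Vale.Agent.P267.H877.XtThm

/-!
# P267 (helper682): `XT.RRInThm` (877) from the RR block and Serre duality
-/

open scoped Manifold ContDiff ComplexConjugate Matrix

noncomputable section

namespace Vale.Agent.P267.H682

open Vale.Agent.P267.FL

/-- the Riemann-Roch inputs on all finite cyclic covers -/
theorem rrInThm (hRR : RR.RRBlock) (hSL : SL1Thm) (hOm : SerreOmThm) : XT.RRInThm := by
  intro X _ _ _ _ _ _ n hX hN B _ m _
  exact rrIn hRR hSL hOm hX hN B m

/-- the same from the parametrix -/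
theorem rrInThm_ps (hRR : RR.RRBlock) (hP : PSThm) (hF : FRThm) : XT.RRInThm :=
  rrInThm hRR (sl1Thm hP hF) (serreOmThm hP hF)

end Vale.Agent.P267.H682
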