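import Vale.Agent.P267.H682.SerreX
import Vale.Agent.P267.H983.SerMain

/-!
# P267, package SURF-GLUE (helper682): `SurfThm` from the RR block and the parametrix `PS`

* `PSThm`: every holomorphic bundle over a finite system of charts has a parametrix `PS`;
* `FRThm`: the Fredholm consequences `FR1`, `FR2`;
* `sl1Thm`, `serreOmThm`, `surfThm_ps`.
-/

set_option linter.unusedSectionVars false

open scoped Manifold ContDiff ComplexConjugate Matrix
open Set Filter Topology MeasureTheory

noncomputable section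

namespace Vale.Agent.P267.H682

open Vale.Agent.P267.FL Vale.Agent.P267.H983
open Vale.Agent.P267.RR (FinAt SB Bun Kern PS)

/-- existence of a parametrix for every bundle over a finite system of charts -/
def PSThm : Prop :=
  ∀ (X : Type) [TopologicalSpace X] [T2Space X] [CompactSpace X]
    [ChartedSpace C2 X] [IsManifold 𝓘(ℂ, C2) ω X] (A : FinAt X) (r : ℕ) (B : Bun A r),
    Nonempty (PS B)

/-- closed range: the exact forms are detected by the bounded functionals -/
def FRThm : Prop :=
  ∀ (X : Type) [TopologicalSpace X] [T2Space X] [CompactSpace X]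
    [ChartedSpace C2 X] [IsManifold 𝓘(ℂ, C2) ω X] (A : FinAt X) (r : ℕ) (B : Bun A r),
    PS B → FR1 B ∧ FR2 B

section one

variable (X : Type) [TopologicalSpace X] [T2Space X] [CompactSpace X]
  [ChartedSpace C2 X] [IsManifold 𝓘(ℂ, C2) ω X]

theorem exists_finAt_triv : Nonempty (FinAt X) := by
  obtain ⟨A, -⟩ := H439.exists_finAt (X := X) (p := fun _ => True)
    (fun x => ⟨univ, isOpen_univ, mem_univ x, trivial⟩) fun _ _ _ _ => trivial
  exact ⟨A⟩

variable {X}

/-- Serre duality in the form `SL1X` from a parametrix for `K` -/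
theorem sl1X_ps (A : FinAt X) (P : PS ((tf A).bun 1)) (hF : FR1 ((tf A).bun 1)) : H469.SL1X X :=
  sl1X_of A fun w hw ho => ((sd_K A).sl1 P hF w hw).2 ho

end one

theorem sl1Thm (hP : PSThm) (hF : FRThm) : SL1Thm := by
  intro X _ _ _ _ _ _
  obtain ⟨A⟩ := exists_finAt_triv X
  obtain ⟨P⟩ := hP X A 1 ((tf A).bun 1)
  exact sl1X_ps A P (hF X A 1 _ P).1

theorem serreOmThm (hP : PSThm) (hF : FRThm) : SerreOmThm := by
  intro X _ _ _ _ _ _
  obtain ⟨A⟩ := exists_finAt_triv X
  obtain ⟨P⟩ := hP X A 2 (omBun A)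
  exact h12_eq_h10 P (hF X A 2 _ P).2

/-- **`SurfThm` from the RR block and the parametrix.** -/
theorem surfThm_ps (hRR : RR.RRBlock) (hP : PSThm) (hF : FRThm) : Asm.SurfThm :=
  surfThm hRR (sl1Thm hP hF) (serreOmThm hP hF)

end Vale.Agent.P267.H682
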