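import Vale.Agent.P267.H682.HodgeRR
import Vale.Agent.P267.H469.Gaud
import Vale.Agent.P267.H283.BlockC
import Vale.Agent.P267.H868.Out

/-!
# P267, package SURF-GLUE (helper682): closed surfaces with `b_1 = 1`, `p_g = 0`

`VIIData hh`: finiteness, Serre duality, Riemann-Roch, Noether, `p_g = 0`, `b_1 = 1` (complex de Rham
cohomology of H469), the duality statement `SD21`, `h^{1,2} = h^{1,0}`. Consequences:
* `VIIData.holFacts : HolFacts Y` (H868): `h^0(𝒪) = h^1(𝒪) = 1`, `h^2(𝒪) = 0`, `h^{1,0} = 0`;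
* `VIIData.chiO`: `χ(𝒪) = 0`; `VIIData.kk`: `K·K = -b_2`;
* `VIIData.neg`: the intersection form is negative definite (`BlockC.SurfIn.neg`).
-/

set_option linter.unusedSectionVars false

open scoped Manifold ContDiff ComplexConjugate Matrix
open Set Filter Topology

noncomputable section

namespace Vale.Agent.P267.H682

open Vale.Agent.P267.FL
open Vale.Agent.P267.RR (h0 h1 h2 chi OX isec IsCanon FiniteStmt SerreStmt RRStmt NoetherStmt
  h10 h11 h12 chiOm)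
open Vale.Agent.P267.H469 (S0 S10 S01 S11 S20 S02 Om1 Om2 Om3 P10 P01 P20 P11 P02 calcX calcH Calc
  toF)
open Vale.Agent.P267.BlockC (ALB pair ExactTwo)

variable {Y : Type} [TopologicalSpace Y] [T2Space Y] [CompactSpace Y] [ConnectedSpace Y]
  [ChartedSpace C2 Y] [IsManifold 𝓘(ℂ, C2) ω Y] {h : Y → Matrix (Fin 2) (Fin 2) ℂ}

/-- What is known about a closed surface with `b_1 = 1` and `p_g = 0`. -/
structure VIIData (hh : IsHerm h) : Prop where
  fin : FiniteStmt Y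
  serre : SerreStmt Y
  rr : RRStmt Y
  noether : NoetherStmt Y
  pg : PgZero Y
  b1 : Module.finrank ℂ (calcH hh).H1 = 1
  sd : (calcH hh).SD21
  om : h12 Y = h10 Y

/-! ### smooth two-forms as elements of `Om2` -/

/-- a smooth two-form as an element of `Om2` -/
def toOm2 {F : TwoF Y} (hF : F.Smooth) : Om2 Y := (⟨F.f20, hF.s20⟩, ⟨F.f11, hF.s11⟩, ⟨F.f02, hF.s02⟩)

theorem toF_toOm2 {F : TwoF Y} (hF : F.Smooth) : toF (toOm2 hF) = F := rfl

theorem D2_toOm2 {F : TwoF Y} (hF : F.Smooth) (hc : F.Closed) : H469.D2 (toOm2 hF) = 0 := by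
  refine Prod.ext (Subtype.ext ?_) (Subtype.ext ?_)
  · funext x j
    exact hc.1 x j
  · funext x i
    have h1 := congrFun (congrFun (H469.d12_eq F) x) i
    change (H469.dbar11 F.f11 + H469.del02 F.f02) x i = 0
    rw [← h1]
    exact hc.2 x i

theorem C2L_toOm2 {F : TwoF Y} (hF : F.Smooth) (hr : F.Real) : H469.C2L (toOm2 hF) = toOm2 hF := by
  refine Prod.ext (Subtype.ext ?_) (Prod.ext (Subtype.ext ?_) (Subtype.ext ?_))
  · funext x
    exact (hr x).1.symm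
  · funext x
    ext i j
    change -conj (F.f11 x j i) = F.f11 x i j
    exact ((hr x).2 j i).symm
  · funext x
    change conj (F.f20 x) = F.f02 x
    rw [(hr x).1, Complex.conj_conj]

/-- an element of `Om1` as a one-form -/
def ofOm1 (A : Om1 Y) : OneF Y := ⟨A.1, A.2⟩

theorem ofOm1_smooth (A : Om1 Y) : (ofOm1 A).Smooth := ⟨A.1.2, A.2.2⟩

theorem toF_D1 (A : Om1 Y) : toF (H469.D1 A) = (ofOm1 A).d := rfl

namespace VIIData

variable {hh : IsHerm h} (D : VIIData hh)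
include D

theorem gaud : Nonempty (calcH hh).Gaud := H469.nonempty_gaud hh D.b1

theorem z10 : (calcH hh).Z10 = ⊥ := by
  obtain ⟨A⟩ := D.gaud
  exact Calc.Z10_eq_bot A D.b1

theorem h20 : (calcH hh).H20 := hasH20 hh _ D.pg

theorem h02 : (calcH hh).H02 := hasH02 hh _ D.fin D.serre D.pg

theorem h10_eq : h10 Y = 0 := h10_eq_zero D.z10

theorem h1O : h1 (OX Y) 0 0 = 1 := by
  obtain ⟨A⟩ := D.gaud
  exact h1_OX_eq_one A D.z10

/-- `χ(𝒪) = 0` -/
theorem chiO : chi (OX Y) 0 0 = 0 := chi_OX D.serre D.pg D.h1O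

theorem h11_eq : h11 Y = Module.finrank ℂ (calcH hh).H2 := by
  obtain ⟨A⟩ := D.gaud
  exact h11_eq_b2 A D.z10 D.h20 D.h02 D.sd

theorem chiOm_eq : chiOm Y = -(Module.finrank ℂ (calcH hh).H2 : ℤ) := by
  rw [chiOm, D.om, D.h10_eq, D.h11_eq]
  simp

/-- `K·K = -b_2` -/
theorem kk (K : ALB Y) (hK : IsCanon K.L) :
    isec K.L K.L = -(Module.finrank ℂ (calcH hh).H2 : ℂ) := by
  rw [D.noether K.ι K.L hK, D.chiO, D.chiOm_eq]
  push_cast
  ring

theorem hol1 (w : Y → Fin 2 → ℂ) (hw : Reg10 ∞ w) (h0 : dbar10 w = 0) : w = 0 := by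
  have h4 : ((⟨w, hw⟩, 0) : Om1 Y) ∈ (calcH hh).Z10 := by
    rw [Calc.mem_Z10]
    refine ⟨rfl, ?_⟩
    change P11 (H469.D1 ((⟨w, hw⟩, 0) : Om1 Y)) = 0
    rw [H469.P11_apply]
    refine Prod.ext rfl (Prod.ext ?_ rfl)
    change H469.del1L (0 : S01 Y) + H469.dbar10L ⟨w, hw⟩ = 0
    rw [map_zero, zero_add]
    exact Subtype.ext h0
  rw [D.z10, Submodule.mem_bot] at h4
  exact congrArg (fun A : Om1 Y => (A.1 : Y → Fin 2 → ℂ)) h4

theorem holFacts : H868.HolFacts Y where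
  pg := D.pg
  hol1 := D.hol1
  h00 := h0_OX
  h01 := D.h1O
  h02 := h2_OX D.serre D.pg

/-- negative definiteness -/
theorem neg (F : TwoF Y) (hF : F.Smooth) (hr : F.Real) (hc : F.Closed) :
    (pair F F).re ≤ 0 ∧ ((pair F F).re = 0 → ExactTwo F) := by
  obtain ⟨A⟩ := D.gaud
  obtain ⟨h1, h2⟩ := Calc.negdef _ A D.h02 (F := toOm2 hF) (D2_toOm2 hF hc)
  have e : (calcH hh).I22 (toOm2 hF) ((calcH hh).c2 (toOm2 hF)) = pair F F := by
    change H469.I22L (toOm2 hF) (H469.C2L (toOm2 hF)) = pair F F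
    rw [C2L_toOm2 hF hr, H469.I22L_apply]
    rfl
  rw [e] at h1 h2
  refine ⟨h1, fun h3 => ?_⟩
  obtain ⟨a, ha⟩ := h2 h3.ge
  refine ⟨ofOm1 a, ofOm1_smooth a, ?_⟩
  rw [← toF_D1]
  have ha' : toOm2 hF = H469.D1 a := ha
  rw [← ha']
  rfl

/-- `L·L - K·L = -2k` for every line bundle, if some holomorphic structure has `χ ≤ 0` -/
theorem rr_of {L K : ALB Y} (hK : IsCanon K.L)
    (hchi : ∃ a, L.L.IsHol a ∧ chi L.L a 0 ≤ 0) (hcomm : isec L.L K.L = isec K.L L.L) :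
    ∃ k : ℕ, isec L.L L.L - isec K.L L.L = -2 * k := by
  obtain ⟨a, ha, hle⟩ := hchi
  have h3 := D.rr L.ι K.ι L.L a K.L ha hK
  rw [D.chiO, hcomm] at h3
  refine ⟨(-chi L.L a 0).toNat, ?_⟩
  have h4 : (((-chi L.L a 0).toNat : ℤ) : ℂ) = -(chi L.L a 0 : ℂ) := by
    rw [Int.toNat_of_nonneg (by omega)]
    push_cast
    ring
  have h5 : (((-chi L.L a 0).toNat : ℕ) : ℂ) = -(chi L.L a 0 : ℂ) := by exact_mod_cast h4
  rw [h5, h3]
  push_cast
  ring

end VIIData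

end Vale.Agent.P267.H682
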