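import Vale.Agent.P267.H682.RRTriv
import Vale.Agent.P267.H469.CalcInst

/-!
# P267, package SURF-GLUE (helper682): Hodge numbers of `H221/Out.lean` and the calculus of H469

For `C := calcX hh hconst` (the calculus of smooth forms of H469):
* `hasH20`, `hasH02`: `C.H20`, `C.H02` from `p_g = 0` (and finiteness, Serre duality);
* `h10_eq_zero`, `h1_OX_eq_one`: `h^{1,0} = 0`, `h^1(𝒪) = 1` if `b_1 = 1`;
* `h11_eq`: `RR.h11 X = finrank C.H11`; `h11_eq_b2 : RR.h11 X = finrank C.H2`.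
-/

set_option linter.unusedSectionVars false

open scoped Manifold ContDiff ComplexConjugate Matrix
open Set Filter Topology

noncomputable section

namespace Vale.Agent.P267.H682

open Vale.Agent.P267.FL
open Vale.Agent.P267.RR (A0 A1 A2 H0 Z1 B1 B2 H1 H2 mem_A0 mem_A1 mem_A2 mem_H0 mem_Z1 mem_B1
  mem_B2 h0 h1 h2 chi OX isec IsCanon FiniteStmt SerreStmt RRStmt NoetherStmt reg0_zero reg1_zero
  reg2_zero h10 h11 h12 chiOm HOm0 ZOm1 BOm1)
open Vale.Agent.P267.H469 (S0 S10 S01 S11 S20 S02 Om1 Om2 Om3 P10 P01 P20 P11 P02 calcX Calc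
  dbar11L dbar10L)

variable {X : Type*} [TopologicalSpace X] [ChartedSpace C2 X] [IsManifold 𝓘(ℂ, C2) ω X]

/-! ### the spaces of `H221/Out.lean` without `span` -/

theorem dbar11_eq (g : X → Matrix (Fin 2) (Fin 2) ℂ) : RR.dbar11 g = H469.dbar11 g := by
  have h := H469.d12_eq (⟨0, g, 0⟩ : TwoF X)
  have h1 : H469.del02 (0 : X → ℂ) = 0 :=
    congrArg (fun s : H469.S12 X => (s : X → Fin 2 → ℂ)) (map_zero (H469.del02L (X := X)))
  change _ = H469.dbar11 g + H469.del02 0 at h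
  rw [h1, add_zero] at h
  rw [← h]
  funext x i
  have h2 : loc2 0 (chartAt C2 x) (0 : X → ℂ) = fun _ => 0 := by
    funext z
    simp [loc2]
  have h3 : dz i (loc2 0 (chartAt C2 x) (0 : X → ℂ)) (chartAt C2 x x) = 0 := by
    rw [h2, dz]
    simp
  change _ = dz i (loc2 0 (chartAt C2 x) (0 : X → ℂ)) (chartAt C2 x x) - _
  rw [h3, zero_sub]
  rfl

theorem span_eq_of {M : Type*} [AddCommGroup M] [Module ℂ M] {s : Set M} (S : Submodule ℂ M)
    (h : ∀ x, x ∈ s ↔ x ∈ S) : Submodule.span ℂ s = S := by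
  have : s = (S : Set M) := Set.ext h
  rw [this, Submodule.span_eq]

theorem mem_HOm0 {c : X → Fin 2 → ℂ} : c ∈ HOm0 X ↔ Reg10 ∞ c ∧ dbar10 c = 0 := by
  have h : HOm0 X = (LinearMap.ker (dbar10L (X := X))).map (S10 X).subtype := by
    refine span_eq_of _ fun x => ?_
    constructor
    · rintro ⟨h1, h2⟩
      exact ⟨⟨x, h1⟩, LinearMap.mem_ker.2 (Subtype.ext h2), rfl⟩
    · rintro ⟨⟨y, hy⟩, h1, rfl⟩
      exact ⟨hy, congrArg Subtype.val (LinearMap.mem_ker.1 h1)⟩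
  rw [h]
  constructor
  · rintro ⟨⟨y, hy⟩, h1, rfl⟩
    exact ⟨hy, congrArg Subtype.val (LinearMap.mem_ker.1 h1)⟩
  · rintro ⟨h1, h2⟩
    exact ⟨⟨c, h1⟩, LinearMap.mem_ker.2 (Subtype.ext h2), rfl⟩

theorem ZOm1_eq : ZOm1 X = (LinearMap.ker (dbar11L (X := X))).map (S11 X).subtype := by
  refine span_eq_of _ fun x => ?_
  constructor
  · rintro ⟨h1, h2⟩
    rw [dbar11_eq] at h2
    exact ⟨⟨x, h1⟩, LinearMap.mem_ker.2 (Subtype.ext h2), rfl⟩
  · rintro ⟨⟨y, hy⟩, h1, rfl⟩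
    refine ⟨hy, ?_⟩
    rw [dbar11_eq]
    exact congrArg Subtype.val (LinearMap.mem_ker.1 h1)

theorem mem_ZOm1 {g : X → Matrix (Fin 2) (Fin 2) ℂ} :
    g ∈ ZOm1 X ↔ ∃ h : Reg11 ∞ g, dbar11L (⟨g, h⟩ : S11 X) = 0 := by
  rw [ZOm1_eq]
  constructor
  · rintro ⟨⟨y, hy⟩, h1, rfl⟩
    exact ⟨hy, LinearMap.mem_ker.1 h1⟩
  · rintro ⟨h1, h2⟩
    exact ⟨⟨g, h1⟩, LinearMap.mem_ker.2 h2, rfl⟩

theorem mem_BOm1 {g : X → Matrix (Fin 2) (Fin 2) ℂ} :
    g ∈ BOm1 X ↔ ∃ c, Reg10 ∞ c ∧ dbar10 c = g := by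
  have h : BOm1 X = (LinearMap.range (dbar10L (X := X))).map (S11 X).subtype := by
    refine span_eq_of _ fun x => ?_
    constructor
    · rintro ⟨c, h1, rfl⟩
      exact ⟨dbar10L ⟨c, h1⟩, ⟨⟨c, h1⟩, rfl⟩, rfl⟩
    · rintro ⟨y, ⟨⟨c, hc⟩, rfl⟩, rfl⟩
      exact ⟨c, hc, rfl⟩
  rw [h]
  constructor
  · rintro ⟨y, ⟨⟨c, hc⟩, rfl⟩, rfl⟩
    exact ⟨c, hc, rfl⟩
  · rintro ⟨c, h1, rfl⟩
    exact ⟨dbar10L ⟨c, h1⟩, ⟨⟨c, h1⟩, rfl⟩, rfl⟩

/-! ### the calculus -/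

section calculus

variable [T2Space X] [CompactSpace X] [Nonempty X] {h : X → Matrix (Fin 2) (Fin 2) ℂ}
  (hh : IsHerm h)
  (hconst : ∀ s : X → ℂ, Reg0 ∞ 0 s → ddb s = 0 → ∃ c : ℂ, s = fun _ => c)

include hh hconst

/-- `p_g = 0`: no holomorphic two-forms -/
theorem hasH20 (hpg : PgZero X) : (calcX hh hconst).H20 := by
  intro b hb hd
  have hb' : P20 b = b := hb
  rw [H469.P20_apply] at hb'
  have hd' : H469.D2 b = 0 := hd
  have e1 : b.2.1 = 0 := by rw [← hb']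
  have h1 : H469.dbar20L b.1 + H469.del11L b.2.1 = 0 := congrArg Prod.fst hd'
  rw [e1, map_zero, add_zero] at h1
  have h2 : dbar0 1 (b.1 : X → ℂ) = 0 := congrArg Subtype.val h1
  have h3 : b.1 = 0 := Subtype.ext (hpg b.1 b.1.2 h2)
  rw [← hb', h3]
  rfl

/-- `H^{0,2} = 0` -/
theorem hasH02 (hF : FiniteStmt X) (hS : SerreStmt X) (hpg : PgZero X) :
    (calcX hh hconst).H02 := by
  intro b hb
  have hb' : P02 b = b := hb
  obtain ⟨a, ha, h1⟩ := exists_dbar1_eq hF hS hpg (b := (b.2.2 : X → ℂ)) b.2.2.2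
  refine ⟨((0, ⟨a, ha⟩) : Om1 X), rfl, ?_⟩
  rw [← hb']
  change P02 (H469.D1 ((0, ⟨a, ha⟩) : Om1 X)) = P02 b
  rw [H469.P02_apply, H469.P02_apply]
  refine Prod.ext rfl (Prod.ext rfl (Subtype.ext ?_))
  exact h1

variable {hh hconst}

/-- `h^{1,0} = 0` if `b_1 = 1` -/
theorem h10_eq_zero (h0 : (calcX hh hconst).Z10 = ⊥) : h10 X = 0 := by
  have h1 : HOm0 X = ⊥ := by
    rw [Submodule.eq_bot_iff]
    intro c hc
    obtain ⟨h2, h3⟩ := mem_HOm0.1 hc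
    have h4 : ((⟨c, h2⟩, 0) : Om1 X) ∈ (calcX hh hconst).Z10 := by
      rw [Calc.mem_Z10]
      refine ⟨rfl, ?_⟩
      change P11 (H469.D1 ((⟨c, h2⟩, 0) : Om1 X)) = 0
      rw [H469.P11_apply]
      refine Prod.ext rfl (Prod.ext ?_ rfl)
      change H469.del1L (0 : S01 X) + dbar10L ⟨c, h2⟩ = 0
      rw [map_zero, zero_add]
      exact Subtype.ext h3
    rw [h0, Submodule.mem_bot] at h4
    exact congrArg (fun A : Om1 X => (A.1 : X → Fin 2 → ℂ)) h4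
  rw [h10, h1]
  exact finrank_bot ℂ _

/-- `h^1(𝒪) = 1` if `b_1 = 1` -/
theorem h1_OX_eq_one (A : (calcX hh hconst).Gaud) (h0 : (calcX hh hconst).Z10 = ⊥) :
    h1 (OX X) 0 0 = 1 := by
  set C := calcX hh hconst with hC
  set θ : X → Fin 2 → ℂ := ((A.θ : Om1 X).2 : X → Fin 2 → ℂ) with hθ
  have hθr : Reg1 ∞ 0 θ := (A.θ : Om1 X).2.2
  have hθc : dbar1 0 θ = 0 := by
    have h1 := congrArg (fun F : Om2 X => (F.2.2 : X → ℂ)) A.closed
    exact h1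
  have hup : Reg1 ∞ 0 (fun x i => up (θ x i)) := reg1_clm up hθr
  have hmem : (fun x i => up (θ x i)) ∈ Z1 (OX X) 0 0 := by
    rw [mem_Z1]
    refine ⟨⟨hup, sec1_OX _⟩, ?_⟩
    rw [db1_OX]
    funext x
    rw [dbar1_clm up ((hθr.at x).of_le (by simp)), hθc]
    simp
  have hne : (Submodule.Quotient.mk ⟨_, hmem⟩ : H1 (OX X) 0 0) ≠ 0 := by
    intro h1
    rw [Submodule.Quotient.mk_eq_zero] at h1
    obtain ⟨s, ⟨hs, -⟩, h2⟩ := (mem_B1 _ _ _).1 h1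
    rw [db0_OX] at h2
    apply A.θ_not_exact (⟨fun x => dw (s x), reg0_clm dw hs⟩ : S0 X)
    change P01 (A.θ : Om1 X) = P01 (H469.D0 _)
    rw [H469.P01_apply, H469.P01_apply]
    refine Prod.ext rfl (Subtype.ext ?_)
    funext x i
    change θ x i = dbar0 0 (fun x => dw (s x)) x i
    rw [dbar0_clm dw ((hs.at x).of_le (by simp)), h2]
    rfl
  rw [h1, finrank_eq_one_iff_of_nonzero' _ hne]
  intro y
  obtain ⟨⟨w, hw⟩, rfl⟩ := Submodule.Quotient.mk_surjective _ y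
  obtain ⟨⟨hw1, -⟩, hw2⟩ := (mem_Z1 _ _ _).1 hw
  rw [db1_OX] at hw2
  have ha : Reg1 ∞ 0 (fun x i => dw (w x i)) := reg1_clm dw hw1
  obtain ⟨t, u, h3⟩ := Calc.dbar_closed' A h0 (a := ((0, ⟨_, ha⟩) : Om1 X)) rfl (by
    change P02 (H469.D1 ((0, ⟨_, ha⟩) : Om1 X)) = 0
    rw [H469.P02_apply]
    refine Prod.ext rfl (Prod.ext rfl (Subtype.ext ?_))
    change dbar1 0 (fun x i => dw (w x i)) = 0
    funext x
    rw [dbar1_clm dw ((hw1.at x).of_le (by simp)), hw2]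
    simp)
  have h4 : ∀ x i, dw (w x i) = t * θ x i + dbar0 0 (u : X → ℂ) x i := by
    intro x i
    have h5 := congrArg (fun B : Om1 X => (B.2 : X → Fin 2 → ℂ) x i) h3
    exact h5
  refine ⟨t, ?_⟩
  rw [← Submodule.Quotient.mk_smul, Submodule.Quotient.eq]
  change _ ∈ B1 (OX X) 0 0
  rw [mem_B1]
  have hu : Reg0 ∞ 0 (fun x => up (-(u : X → ℂ) x)) :=
    reg0_clm up (reg0_iff_at.2 fun x => (u.2.at x).neg)
  refine ⟨fun x => up (-(u : X → ℂ) x), ⟨hu, sec_OX _⟩, ?_⟩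
  rw [db0_OX]
  funext x i
  have hn : At0 1 0 (fun x => -(u : X → ℂ) x) x := ((u.2.at x).neg).of_le (by simp)
  rw [dbar0_clm up hn, dbar0_neg ((u.2.at x).of_le (by simp))]
  change _ = t • up (θ x i) - w x i
  rw [← up_dw (w x i), h4, ← map_smul, ← map_sub]
  congr 1
  simp

/-- `RR.h11` is the dimension of `H^{1,1}` of the calculus of H469 -/
theorem h11_eq : h11 X = Module.finrank ℂ (calcX hh hconst).H11 := by
  set C := calcX hh hconst with hC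
  -- the isomorphism of the spaces of closed forms
  let e : C.Z11 ≃ₗ[ℂ] ZOm1 X :=
    { toFun := fun b => ⟨((b : Om2 X).2.1 : X → Matrix (Fin 2) (Fin 2) ℂ), by
        obtain ⟨⟨b20, b11, b02⟩, hb⟩ := b
        rw [Calc.mem_Z11] at hb
        obtain ⟨h1, h2⟩ := hb
        have h1' : P11 ((b20, b11, b02) : Om2 X) = (b20, b11, b02) := h1
        rw [H469.P11_apply] at h1'
        have e2 : b02 = 0 := (congrArg (fun F : Om2 X => F.2.2) h1').symm
        rw [mem_ZOm1]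
        refine ⟨b11.2, ?_⟩
        have h3 : H469.Q12 (H469.D2 ((b20, b11, b02) : Om2 X)) = 0 := h2
        have h4 : dbar11L b11 + H469.del02L b02 = 0 := congrArg Prod.snd h3
        rw [e2, map_zero, add_zero] at h4
        exact h4⟩
      map_add' := fun a b => rfl
      map_smul' := fun c a => rfl
      invFun := fun g => ⟨((0, ⟨g.1, (mem_ZOm1.1 g.2).1⟩, 0) : Om2 X), by
        rw [Calc.mem_Z11]
        refine ⟨rfl, ?_⟩
        change H469.Q12 (H469.D2 ((0, ⟨g.1, (mem_ZOm1.1 g.2).1⟩, 0) : Om2 X)) = 0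
        rw [H469.Q12_apply]
        refine Prod.ext rfl ?_
        change dbar11L ⟨g.1, _⟩ + H469.del02L (0 : S02 X) = 0
        rw [map_zero, add_zero]
        exact (mem_ZOm1.1 g.2).2⟩
      left_inv := fun b => by
        obtain ⟨⟨b20, b11, b02⟩, hb⟩ := b
        have h1' : P11 ((b20, b11, b02) : Om2 X) = (b20, b11, b02) := ((Calc.mem_Z11 C).1 hb).1
        exact Subtype.ext h1'
      right_inv := fun g => rfl }
  have he : (C.B11.comap C.Z11.subtype).map (e : C.Z11 →ₗ[ℂ] ZOm1 X) =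
      (BOm1 X).comap (ZOm1 X).subtype := by
    ext ⟨g, hg⟩
    rw [Submodule.mem_comap]
    change _ ↔ g ∈ BOm1 X
    rw [mem_BOm1]
    constructor
    · rintro ⟨⟨b, hb⟩, ⟨A, hA⟩, hbg⟩
      have h1 : g = ((b : Om2 X).2.1 : X → Matrix (Fin 2) (Fin 2) ℂ) :=
        (congrArg Subtype.val hbg).symm
      have h2 : P11 (H469.D1 (P10 (A : Om1 X))) = b := hA
      refine ⟨(A.1 : X → Fin 2 → ℂ), A.1.2, ?_⟩
      rw [h1, ← h2]
      have h3 : (H469.D1 (P10 (A : Om1 X))).2.1 = H469.del1L (0 : S01 X) + dbar10L A.1 := rfl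
      change _ = (((H469.D1 (P10 (A : Om1 X))).2.1 : S11 X) : X → Matrix (Fin 2) (Fin 2) ℂ)
      rw [h3, map_zero, zero_add]
      rfl
    · rintro ⟨c, hc, rfl⟩
      have h3 : C.p11 (C.d1 (C.p10 ((⟨c, hc⟩, 0) : Om1 X))) =
          ((0, ⟨dbar10 c, (mem_ZOm1.1 hg).1⟩, 0) : Om2 X) := by
        refine Prod.ext rfl (Prod.ext ?_ rfl)
        change H469.del1L (0 : S01 X) + dbar10L ⟨c, hc⟩ = _
        rw [map_zero, zero_add]
        rfl
      refine ⟨e.symm ⟨dbar10 c, hg⟩, ⟨((⟨c, hc⟩, 0) : Om1 X), h3⟩, ?_⟩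
      exact e.apply_symm_apply _
  exact (LinearEquiv.finrank_eq (Submodule.Quotient.equiv _ _ e he)).symm

/-- `h^{1,1} = b_2` if `b_1 = 1` and `p_g = 0` -/
theorem h11_eq_b2 (A : (calcX hh hconst).Gaud) (h0 : (calcX hh hconst).Z10 = ⊥)
    (h20 : (calcX hh hconst).H20) (h02 : (calcX hh hconst).H02) (hs : (calcX hh hconst).SD21) :
    h11 X = Module.finrank ℂ (calcX hh hconst).H2 := by
  rw [h11_eq (hh := hh) (hconst := hconst)]
  exact (Calc.b2_eq_h11 A h0 h20 h02 hs).symm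

end calculus

end Vale.Agent.P267.H682
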