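import Vale.Agent.P267.H338.Ident
import Vale.Agent.P267.H815.Div
import Vale.Agent.P267.H62.Fact

/-!
# P267, package D-P1DIV: the reduced divisor of an embedded projective line
-/

open scoped Manifold ContDiff Topology
open Set Filter Metric
open Vale.Agent.P272.K

set_option linter.unusedSectionVars false

noncomputable section

namespace Vale.Agent.P267.H682

open Vale.Agent.P267.H815 Vale.Agent.P267.H338

variable {X : Type*} [TopologicalSpace X] [ChartedSpace (Cm 2) X]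

/-- `f` is a reduced local equation of the set `C` near `x`: either `x ∈ C` and `f` is holomorphic
near `x` with nonvanishing differential at `x` and zero set `C` near `x`, or `x ∉ C` and `f` is a
unit and `C` does not meet a neighbourhood of `x`. -/
def LocEqn (f : X → ℂ) (C : Set X) (x : X) : Prop :=
  HolN f x ∧ (f x = 0 → mfderiv 𝓘(ℂ, Cm 2) 𝓘(ℂ) f x ≠ 0) ∧ ∀ᶠ y in 𝓝 x, (y ∈ C ↔ f y = 0)

theorem LocEqn.holN {f : X → ℂ} {C : Set X} {x : X} (h : LocEqn f C x) : HolN f x := h.1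

theorem LocEqn.mem_iff {f : X → ℂ} {C : Set X} {x : X} (h : LocEqn f C x) : x ∈ C ↔ f x = 0 :=
  h.2.2.self_of_nhds

theorem finrank_Cm : Module.finrank ℂ (Cm 2) = 2 := by
  simp [Cm]

theorem LocEqn.defines {f : X → ℂ} {C : Set X} {x : X} (h : LocEqn f C x) (hx : x ∈ C) :
    H62.Defines (Cm 2) f C x :=
  ⟨⟨h.1, h.mem_iff.1 hx, h.2.1 (h.mem_iff.1 hx)⟩, h.2.2⟩

theorem locEqn_of_defines {f : X → ℂ} {C : Set X} {x : X} (h : H62.Defines (Cm 2) f C x) :
    LocEqn f C x :=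
  ⟨h.1.1, fun _ => h.1.2.2, h.2⟩

section

variable [IsManifold 𝓘(ℂ, Cm 2) ω X]

instance instOne : IsManifold 𝓘(ℂ, Cm 2) 1 X := IsManifold.of_le (n := ω) le_top

/-- Two reduced local equations of the same set differ by a unit. -/
theorem LocEqn.assoc {f g : X → ℂ} {C : Set X} {x : X} (hf : LocEqn f C x) (hg : LocEqn g C x) :
    Assoc f g x := by
  by_cases hx : x ∈ C
  · obtain ⟨v, hv, hv0, he⟩ := (hg.defines hx).unit (hf.defines hx) finrank_Cm
    refine ⟨v, ⟨hv, hv0⟩, ?_⟩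
    filter_upwards [he] with y hy
    rw [hy, mul_comm]
  · have h1 : f x ≠ 0 := fun h => hx (hf.mem_iff.2 h)
    have h2 : g x ≠ 0 := fun h => hx (hg.mem_iff.2 h)
    refine ⟨fun y => f y / g y, ⟨hf.1.div hg.1 h2, div_ne_zero h1 h2⟩, ?_⟩
    filter_upwards [hg.1.continuousAt.eventually_ne h2] with y hy
    rw [div_mul_cancel₀ _ hy]

/-- A reduced local equation is not identically zero near the point. -/
theorem LocEqn.frequently {f : X → ℂ} {C : Set X} {x : X} (hf : LocEqn f C x) :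
    ∃ᶠ y in 𝓝 x, f y ≠ 0 := by
  intro hcon
  have h0 : ∀ᶠ y in 𝓝 x, f y = 0 := by
    filter_upwards [hcon] with y hy using not_not.1 hy
  have h1 : f =ᶠ[𝓝 x] fun _ => (0 : ℂ) := h0
  refine hf.2.1 h0.self_of_nhds ?_
  rw [h1.mfderiv_eq]
  exact mfderiv_const

/-- The set `C` has reduced local equations near every point. -/
def IsSmoothCurve (C : Set X) : Prop := ∀ x, ∃ f : X → ℂ, ∀ᶠ y in 𝓝 x, LocEqn f C y

/-- The reduced effective divisor with support `C`. -/
theorem IsSmoothCurve.exists_effDiv {C : Set X} (hC : IsSmoothCurve C) :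
    ∃ D : EffDiv X, ∀ x, ∀ y ∈ D.U x, LocEqn (D.f x) C y := by
  choose g hg using hC
  obtain ⟨D, hD⟩ := H815.exists_effDiv g (fun x => (hg x).self_of_nhds.1)
    (fun x => (hg x).self_of_nhds.frequently) (fun x => by
      filter_upwards [hg x] with y hy
      exact hy.assoc (hg y).self_of_nhds)
  refine ⟨D, fun x y hy => ?_⟩
  have h1 : LocEqn (g y) C y := (hg y).self_of_nhds
  have h2 : Assoc (D.f x) (D.f y) y := assoc_f D hy (D.mem y)
  have h3 : HolN (D.f x) y := holN_f D x hy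
  rw [hD] at h2 h3 ⊢
  refine ⟨h3, fun h0 => ?_, ?_⟩
  · have h4 : g y y = 0 := h2.zero_iff.1 h0
    exact (h2.differential h1.1 h4).2 (h1.2.1 h4)
  · filter_upwards [h2.eventually, h1.2.2] with z hz hz'
    rw [hz', hz.zero_iff]

theorem supp_eq {C : Set X} {D : EffDiv X} (h : ∀ x, ∀ y ∈ D.U x, LocEqn (D.f x) C y) :
    D.supp = C := by
  ext x
  exact (h x x (D.mem x)).mem_iff.symm

omit [IsManifold 𝓘(ℂ, Cm 2) ω X] in
/-- A divisor whose local equations have nonzero differential at their zeros is reduced. -/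
theorem locEqn_of_reduced (D : EffDiv X)
    (h : ∀ x, ∀ y ∈ D.U x, D.f x y = 0 → mfderiv 𝓘(ℂ, Cm 2) 𝓘(ℂ) (D.f x) y ≠ 0) :
    ∀ x, ∀ y ∈ D.U x, LocEqn (D.f x) D.supp y := by
  intro x y hy
  refine ⟨holN_f D x hy, h x y hy, ?_⟩
  filter_upwards [(D.isOpen x).mem_nhds hy] with z hz
  exact mem_supp_iff D hz

/-- **Uniqueness**: reduced divisors with the same support coincide (differ by units). -/
theorem same_of_supp_eq {D D' : EffDiv X}
    (h : ∀ x, ∀ y ∈ D.U x, D.f x y = 0 → mfderiv 𝓘(ℂ, Cm 2) 𝓘(ℂ) (D.f x) y ≠ 0)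
    (h' : ∀ x, ∀ y ∈ D'.U x, D'.f x y = 0 → mfderiv 𝓘(ℂ, Cm 2) 𝓘(ℂ) (D'.f x) y ≠ 0)
    (hs : D.supp = D'.supp) : Same D D' := by
  intro x
  have h1 := locEqn_of_reduced D h x x (D.mem x)
  have h2 := locEqn_of_reduced D' h' x x (D'.mem x)
  rw [← hs] at h2
  exact h1.assoc h2

/-- the local equations of equal divisors differ by units at all common points -/
theorem Same.assoc {D D' : EffDiv X} (h : Same D D') {x x' y : X} (hx : y ∈ D.U x)
    (hx' : y ∈ D'.U x') : Assoc (D.f x) (D'.f x') y :=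
  ((assoc_f D hx (D.mem y)).trans (h y)).trans (assoc_f D' (D'.mem y) hx')

/-- the quotient of the local equations of equal divisors as one function -/
theorem Same.exists_unit {D D' : EffDiv X} (h : Same D D') (x x' : X) :
    ∃ u : X → ℂ, MDifferentiableOn 𝓘(ℂ, Cm 2) 𝓘(ℂ) u (D.U x ∩ D'.U x') ∧
      ∀ y ∈ D.U x ∩ D'.U x', u y ≠ 0 ∧ D.f x y = u y * D'.f x' y := by
  have key : ∀ y : X, ∃ u : X → ℂ, y ∈ D.U x ∩ D'.U x' → UnitN u y ∧
      ∀ᶠ z in 𝓝 y, D.f x z = u z * D'.f x' z := by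
    intro y
    by_cases hy : y ∈ D.U x ∩ D'.U x'
    · obtain ⟨u, hu⟩ := Same.assoc h hy.1 hy.2
      exact ⟨u, fun _ => hu⟩
    · exact ⟨fun _ => 1, fun h => absurd h hy⟩
  choose u hu using key
  have hloc : ∀ z ∈ D.U x ∩ D'.U x', (fun y => u y y) =ᶠ[𝓝 z] u z := by
    intro z hz
    filter_upwards [((D.isOpen x).inter (D'.isOpen x')).mem_nhds hz, (hu z hz).1.eventually,
      eventually_eventually_nhds.2 (hu z hz).2] with y hy hy1 hy2
    refine eq_of_mul_eq (hu y hy).1.1.continuousAt hy1.1.continuousAt (D'.ne x' y hy.2) ?_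
    filter_upwards [(hu y hy).2, hy2] with w hw hw'
    rw [← hw, ← hw']
  refine ⟨fun y => u y y, ?_, ?_⟩
  · intro z hz
    exact (((hu z hz).1.1.congr (hloc z hz)).self).mdifferentiableWithinAt
  · intro y hy
    exact ⟨(hu y hy).1.2, (hu y hy).2.self_of_nhds⟩

end

/-! ### embedded projective lines -/

section P1

variable [T2Space X] [IsManifold 𝓘(ℂ, Cm 2) ω X]

theorem isSmoothCurve_image (φ : EmbP1 X) : IsSmoothCurve φ.image := by
  intro x
  by_cases hx : x ∈ φ.image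
  · obtain ⟨U, l, hU, hxU, hl, hd, he⟩ := φ.local_eq hx
    refine ⟨l, ?_⟩
    filter_upwards [hU.mem_nhds hxU] with y hy
    refine ⟨holN_of_on hU hl hy, fun _ => hd y hy, ?_⟩
    filter_upwards [hU.mem_nhds hy] with z hz using he z hz
  · refine ⟨fun _ => 1, ?_⟩
    filter_upwards [φ.isClosed_image.isOpen_compl.mem_nhds hx] with y hy
    refine ⟨holN_const 1 y, fun h => absurd h one_ne_zero, ?_⟩
    filter_upwards [φ.isClosed_image.isOpen_compl.mem_nhds hy] with z hz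
    exact ⟨fun h => absurd h hz, fun h => absurd h one_ne_zero⟩

/-- The reduced divisor of an embedded projective line. -/
def toEffDiv (φ : EmbP1 X) : EffDiv X := (isSmoothCurve_image φ).exists_effDiv.choose

theorem toEffDiv_spec (φ : EmbP1 X) :
    ∀ x, ∀ y ∈ (toEffDiv φ).U x, LocEqn ((toEffDiv φ).f x) φ.image y :=
  (isSmoothCurve_image φ).exists_effDiv.choose_spec

theorem toEffDiv_supp (φ : EmbP1 X) : (toEffDiv φ).supp = φ.image := supp_eq (toEffDiv_spec φ)

theorem toEffDiv_mfderiv_ne (φ : EmbP1 X) : ∀ x, ∀ y ∈ (toEffDiv φ).U x,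
    (toEffDiv φ).f x y = 0 → mfderiv 𝓘(ℂ, Cm 2) 𝓘(ℂ) ((toEffDiv φ).f x) y ≠ 0 :=
  fun x y hy => (toEffDiv_spec φ x y hy).2.1

theorem toEffDiv_eq_zero_iff (φ : EmbP1 X) {x y : X} (hy : y ∈ (toEffDiv φ).U x) :
    (toEffDiv φ).f x y = 0 ↔ y ∈ φ.image := (toEffDiv_spec φ x y hy).mem_iff.symm

theorem toEffDiv_isSmoothRational (φ : EmbP1 X) : (toEffDiv φ).IsSmoothRational :=
  ⟨toEffDiv_mfderiv_ne φ, φ.toP1Map, φ.inj, φ.ninf, toEffDiv_supp φ⟩

/-- Any reduced divisor with support `φ.image` is `toEffDiv φ`, up to units. -/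
theorem same_toEffDiv (φ : EmbP1 X) {D : EffDiv X}
    (h : ∀ x, ∀ y ∈ D.U x, D.f x y = 0 → mfderiv 𝓘(ℂ, Cm 2) 𝓘(ℂ) (D.f x) y ≠ 0)
    (hs : D.supp = φ.image) : Same D (toEffDiv φ) :=
  same_of_supp_eq h (toEffDiv_mfderiv_ne φ) (hs.trans (toEffDiv_supp φ).symm)

/-- Any reduced divisor with support `φ.image` is a smooth rational curve. -/
theorem isSmoothRational_of_supp (φ : EmbP1 X) {D : EffDiv X}
    (h : ∀ x, ∀ y ∈ D.U x, D.f x y = 0 → mfderiv 𝓘(ℂ, Cm 2) 𝓘(ℂ) (D.f x) y ≠ 0)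
    (hs : D.supp = φ.image) : D.IsSmoothRational :=
  ⟨h, φ.toP1Map, φ.inj, φ.ninf, hs⟩

end P1

/-! ### metrics and self-intersection numbers of equal divisors -/

section

variable [IsManifold 𝓘(ℂ, Cm 2) ω X]

theorem Same.symm {D D' : EffDiv X} (h : Same D D') : Same D' D := fun x => (h x).symm

theorem Same.trans {D D' D'' : EffDiv X} (h : Same D D') (h' : Same D' D'') : Same D D'' :=
  fun x => (h x).trans (h' x)

end

end Vale.Agent.P267.H682
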