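import Vale.Agent.P267.H221.Out
import Vale.Agent.P267.H399.LBCalc
import Vale.Agent.P267.Statement
import Mathlib.Geometry.Manifold.Complex

/-!
# P267, package SURF-GLUE (helper682): the trivial bundle in the language of `H221/Out.lean`

* `PgZero X`: there is no holomorphic two-form (`p_g = 0`); `pgZero_of_kodaira`.
* every line bundle with fibre space `ℂ¹` is `OX X`; `h0_OX : h0 (OX X) 0 0 = 1`;
* with finiteness, Serre duality and `p_g = 0`: `h2_OX : h2 (OX X) 0 0 = 0`, every smooth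
  `(0,2)`-form is `∂̄`-exact (`exists_dbar1_eq`), every line bundle has a holomorphic structure
  (`exists_isHol`).
-/

set_option linter.unusedSectionVars false

open scoped Manifold ContDiff ComplexConjugate Matrix
open Set Filter Topology

noncomputable section

namespace Vale.Agent.P267.H682

open Vale.Agent.P267.FL
open Vale.Agent.P267.RR (A0 A1 A2 D0 D1 H0 Z1 B1 B2 H1 H2 mem_A0 mem_A1 mem_A2 mem_H0 mem_Z1 mem_B1
  mem_B2 h0 h1 h2 chi OX isec IsCanon FiniteStmt SerreStmt RRStmt NoetherStmt reg0_zero reg1_zero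
  reg2_zero)

/-! ### `p_g = 0` -/

section pg

variable (X : Type*) [TopologicalSpace X] [ChartedSpace C2 X]

/-- there is no holomorphic two-form -/
def PgZero : Prop := ∀ u : X → ℂ, Reg0 ∞ 1 u → dbar0 1 u = 0 → u = 0

variable {X}

theorem jacM_eq (e e' : Ch X) (x : X) : P272.K.jacM e e' x = jacM e e' x := by
  ext p i
  simp only [P272.K.jacM, jacM, P272.K.dz, dz, Matrix.of_apply, smul_eq_mul]
  ring

/-- components of a smooth section of `K^κ` with `∂̄ s = 0` are holomorphic -/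
theorem differentiableOn_loc0 [IsManifold 𝓘(ℂ, C2) ω X] {V : Type*} [NormedAddCommGroup V]
    [NormedSpace ℂ V] {κ : ℤ} {u : X → V} (hu : Reg0 ∞ κ u)
    (h : dbar0 κ u = 0) {e : Ch X} (he : e ∈ atlas C2 X) :
    DifferentiableOn ℂ (loc0 κ e u) e.target := by
  intro z hz
  have hd : DifferentiableAt ℝ (loc0 κ e u) z := (hu.contDiffAt he hz).differentiableAt (by simp)
  refine ((differentiableAt_complex_iff hd).2 fun j => ?_).differentiableWithinAt
  rw [← loc1_dbar0 he hz hd j, h]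
  simp [loc1]

/-- vanishing of the first plurigenus in the sense of the statement -/
theorem pgZero_of_kodaira [IsManifold 𝓘(ℂ, C2) ω X] (hk : KodairaNegInf X) : PgZero X := by
  intro u hu h
  set s : PluriForm 1 X :=
    { coeff := fun e => loc0 1 e u
      holo := fun e he => differentiableOn_loc0 hu h he
      change := fun e e' x hx hx' => by
        rw [jacM_eq, loc0_change hx.1 hx'.1 hx.2 hx'.2]
        simp [mul_comm] } with hs
  funext x
  have h1 := hk 1 le_rfl s (chartAt C2 x) (chart_mem_atlas C2 x) (chartAt C2 x x)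
    (mem_chart_target C2 x)
  rw [hs] at h1
  simpa using h1

end pg

/-! ### line bundles with fibre space `ℂ¹` -/

section fin1

variable {X : Type*} [TopologicalSpace X] [ChartedSpace C2 X]

theorem lb_P_eq_one (L : LB X (Fin 1)) (x : X) : L.P x = 1 := by
  have h := L.tr x
  ext i j
  have hi : i = 0 := Subsingleton.elim _ _
  have hj : j = 0 := Subsingleton.elim _ _
  subst hi hj
  simpa [Matrix.trace] using h

theorem lb_ext {ι : Type} [Fintype ι] [DecidableEq ι] {L L' : LB X ι} (h : ∀ x, L.P x = L'.P x) :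
    L = L' := by
  have h' : L.P = L'.P := funext h
  cases L
  cases L'
  simp only [LB.mk.injEq]
  exact h'

theorem lb_eq_OX (L : LB X (Fin 1)) : L = OX X :=
  lb_ext fun x => by rw [lb_P_eq_one, lb_P_eq_one]

theorem act_OX (x : X) (v : EuclideanSpace ℂ (Fin 1)) : LB.act ((OX X).P x) v = v := by
  rw [lb_P_eq_one, LB.one_act]

theorem sec_OX (s : X → EuclideanSpace ℂ (Fin 1)) : (OX X).Sec s := fun x => act_OX x _

theorem sec1_OX (s : X → Fin 2 → EuclideanSpace ℂ (Fin 1)) : (OX X).Sec1 s :=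
  fun x _ => act_OX x _

theorem db0_OX (κ : ℤ) (s : X → EuclideanSpace ℂ (Fin 1)) : (OX X).db0 0 κ s = dbar0 κ s := by
  funext x i
  rw [LB.db0, act_OX]
  simp

theorem db1_OX (κ : ℤ) (w : X → Fin 2 → EuclideanSpace ℂ (Fin 1)) :
    (OX X).db1 0 κ w = dbar1 κ w := by
  funext x
  rw [LB.db1, act_OX]
  simp

/-- `ℂ → ℂ¹` -/
def up : ℂ →L[ℂ] EuclideanSpace ℂ (Fin 1) :=
  LinearMap.toContinuousLinearMap
    { toFun := fun c => WithLp.toLp 2 fun _ => c
      map_add' := fun a b => by ext; simp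
      map_smul' := fun a b => by ext; simp }

/-- `ℂ¹ → ℂ` -/
def dw : EuclideanSpace ℂ (Fin 1) →L[ℂ] ℂ := EuclideanSpace.proj (0 : Fin 1)

@[simp] theorem up_apply (c : ℂ) (i : Fin 1) : up c i = c := rfl

@[simp] theorem dw_apply (v : EuclideanSpace ℂ (Fin 1)) : dw v = v 0 := rfl

theorem dw_up (c : ℂ) : dw (up c) = c := rfl

theorem up_dw (v : EuclideanSpace ℂ (Fin 1)) : up (dw v) = v := by
  ext i
  have hi : i = 0 := Subsingleton.elim _ _
  subst hi
  rfl

theorem reg0_clm {V W : Type*} [NormedAddCommGroup V] [NormedSpace ℂ V] [NormedAddCommGroup W]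
    [NormedSpace ℂ W] [IsManifold 𝓘(ℂ, C2) ω X] (T : V →L[ℂ] W) {n : WithTop ℕ∞} {κ : ℤ}
    {s : X → V} (h : Reg0 n κ s) : Reg0 n κ fun x => T (s x) :=
  reg0_iff_at.2 fun x => (h.at x).clm T

theorem reg1_clm {V W : Type*} [NormedAddCommGroup V] [NormedSpace ℂ V] [NormedAddCommGroup W]
    [NormedSpace ℂ W] [IsManifold 𝓘(ℂ, C2) ω X] (T : V →L[ℂ] W) {n : WithTop ℕ∞} {κ : ℤ}
    {s : X → Fin 2 → V} (h : Reg1 n κ s) : Reg1 n κ fun x i => T (s x i) :=
  reg1_iff_at.2 fun x => (h.at x).clm T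

theorem reg2_clm {V W : Type*} [NormedAddCommGroup V] [NormedSpace ℂ V] [NormedAddCommGroup W]
    [NormedSpace ℂ W] [IsManifold 𝓘(ℂ, C2) ω X] (T : V →L[ℂ] W) {n : WithTop ℕ∞} {κ : ℤ}
    {s : X → V} (h : Reg2 n κ s) : Reg2 n κ fun x => T (s x) :=
  reg2_iff_at.2 fun x => (h.at x).clm T

theorem mem_H0_OX {κ : ℤ} {s : X → EuclideanSpace ℂ (Fin 1)} :
    s ∈ H0 (OX X) 0 κ ↔ Reg0 ∞ κ s ∧ dbar0 κ s = 0 := by
  rw [mem_H0, db0_OX]
  exact ⟨fun h => ⟨h.1.1, h.2⟩, fun h => ⟨⟨h.1, sec_OX s⟩, h.2⟩⟩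

theorem F02_OX (x : X) : (OX X).F02 x = 0 := by
  have h : ∀ (i j : Fin 1) (k : Fin 2), dbar0 0 (fun y : X => (OX X).P y i j) x k = 0 := by
    intro i j k
    have h1 : loc0 0 (chartAt C2 x) (fun y : X => (OX X).P y i j) =
        fun _ => (1 : Matrix (Fin 1) (Fin 1) ℂ) i j := by
      funext z
      rw [loc0, lb_P_eq_one]
      simp
    rw [dbar0, h1, dzb]
    simp
  rw [LB.F02]
  have h2 : ∀ k, (Matrix.of fun i j => dbar0 0 (fun y : X => (OX X).P y i j) x k) = 0 := by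
    intro k
    ext i j
    exact h i j k
  rw [h2, h2]
  simp

theorem dbar1_zero_fun {V : Type*} [NormedAddCommGroup V] [NormedSpace ℂ V] (κ : ℤ) :
    dbar1 κ (0 : X → Fin 2 → V) = 0 := by
  funext x
  have h1 : ∀ i, (fun z => loc1 κ (chartAt C2 x) (0 : X → Fin 2 → V) z i) = fun _ => 0 := by
    intro i
    funext z
    simp [loc1]
  rw [dbar1, h1, h1, dzb, dzb]
  simp

theorem isHol_OX : (OX X).IsHol 0 := by
  refine ⟨reg1_zero 0, fun x => ?_⟩
  rw [F02_OX, dbar1_zero_fun]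
  simp

end fin1

/-! ### holomorphic functions on compact surfaces -/

section compact

variable {X : Type*} [TopologicalSpace X] [ChartedSpace C2 X] [IsManifold 𝓘(ℂ, C2) ω X]

theorem h0_OX_of_pg (hpg : PgZero X) : h0 (OX X) 0 1 = 0 := by
  have h : H0 (OX X) 0 1 = ⊥ := by
    rw [Submodule.eq_bot_iff]
    intro s hs
    obtain ⟨h1, h2⟩ := mem_H0_OX.1 hs
    have h3 := hpg (fun x => dw (s x)) (reg0_clm dw h1) (by
      funext x i
      rw [dbar0_clm dw ((h1.at x).of_le (by simp)), h2]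
      simp)
    funext x
    have h4 := congrFun h3 x
    rw [← up_dw (s x)]
    change up (dw (s x)) = 0
    rw [h4]
    simp
  rw [h0, h]
  exact finrank_bot ℂ _

theorem h2_OX (hS : SerreStmt X) (hpg : PgZero X) : h2 (OX X) 0 0 = 0 := by
  rw [(hS (Fin 1) (OX X) 0 isHol_OX 0).2.2, lb_eq_OX (OX X).dual, neg_zero, sub_zero]
  exact h0_OX_of_pg hpg

/-- every smooth `(0,2)`-form is `∂̄`-exact -/
theorem exists_dbar1_eq (hF : FiniteStmt X) (hS : SerreStmt X) (hpg : PgZero X) {b : X → ℂ}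
    (hb : Reg2 ∞ 0 b) : ∃ a : X → Fin 2 → ℂ, Reg1 ∞ 0 a ∧ dbar1 0 a = b := by
  have h1 := (hF (Fin 1) (OX X) 0 isHol_OX 0).2.2
  have h2 : Module.finrank ℂ (H2 (OX X) 0 0) = 0 := h2_OX hS hpg
  have h3 : Subsingleton (H2 (OX X) 0 0) := Module.finrank_zero_iff.1 h2
  have hb' : (fun x => up (b x)) ∈ A2 (OX X) 0 := ⟨reg2_clm up hb, sec_OX _⟩
  have h4 : (Submodule.Quotient.mk ⟨_, hb'⟩ : H2 (OX X) 0 0) = 0 := Subsingleton.elim _ _
  rw [Submodule.Quotient.mk_eq_zero] at h4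
  obtain ⟨w, ⟨hw1, -⟩, hw⟩ := (mem_B2 _ _ _).1 h4
  refine ⟨fun x i => dw (w x i), reg1_clm dw hw1, ?_⟩
  funext x
  rw [dbar1_clm dw ((hw1.at x).of_le (by simp))]
  have h5 := congrFun hw x
  rw [db1_OX] at h5
  rw [h5]
  rfl

/-- the `(0,2)`-part of the curvature is smooth -/
theorem reg2_F02 {ι : Type} [Fintype ι] [DecidableEq ι] (L : LB X ι) : Reg2 ∞ 0 L.F02 := by
  rw [reg2_iff_at]
  intro x
  have hd : ∀ i j, At1 ∞ 0 (dbar0 0 fun y => L.P y i j) x := fun i j =>
    ((L.smooth i j).at x).dbar (by simp)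
  have hP : ∀ i j, At0 ∞ 0 (fun y => L.P y i j) x := fun i j => (L.smooth i j).at x
  have h1 : L.F02 = fun y => ∑ i, ∑ j, ∑ k, L.P y i j •
      (dbar0 0 (fun y => L.P y j k) y 0 • dbar0 0 (fun y => L.P y k i) y 1 -
        dbar0 0 (fun y => L.P y j k) y 1 • dbar0 0 (fun y => L.P y k i) y 0) := by
    funext y
    simp only [LB.F02, Matrix.trace, Matrix.diag_apply, Matrix.mul_apply, Matrix.sub_apply,
      Matrix.of_apply, smul_eq_mul, ← Finset.sum_sub_distrib, Finset.mul_sum]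
  rw [h1]
  exact At2.sum fun i _ => At2.sum fun j _ => At2.sum fun k _ =>
    At2.smul (hP i j) (At2.wedge_smul (hd j k) (hd k i))

/-- every line bundle has a holomorphic structure -/
theorem exists_isHol (hF : FiniteStmt X) (hS : SerreStmt X) (hpg : PgZero X) {ι : Type}
    [Fintype ι] [DecidableEq ι] (L : LB X ι) : ∃ a, L.IsHol a := by
  obtain ⟨a, ha, h⟩ := exists_dbar1_eq hF hS hpg (b := fun x => -L.F02 x)
    (reg2_iff_at.2 fun x => ((reg2_F02 L).at x).neg)
  exact ⟨a, ha, fun x => by rw [h]; simp⟩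

variable [CompactSpace X] [ConnectedSpace X]

/-- holomorphic functions on a compact connected surface are constant -/
theorem eq_of_dbar0 {u : X → ℂ} (hu : Reg0 ∞ 0 u) (h : dbar0 0 u = 0) (x y : X) : u x = u y := by
  have h1 : HolOn 0 u univ := (holOn_iff_dbar0 isOpen_univ).2 fun x _ =>
    ⟨(hu.at x).of_le (by simp), by rw [h]; rfl⟩
  have h2 : MDifferentiable 𝓘(ℂ, C2) 𝓘(ℂ, ℂ) u :=
    mdifferentiableOn_univ.1 ((holOn_zero_iff_mdifferentiableOn isOpen_univ).1 h1)
  exact h2.apply_eq_of_compactSpace x y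

theorem h0_OX : h0 (OX X) 0 0 = 1 := by
  have x₀ : X := Classical.arbitrary X
  have hmem : (fun _ : X => up 1) ∈ H0 (OX X) 0 0 := by
    rw [mem_H0_OX]
    have h1 : ∀ e : Ch X, loc0 0 e (fun _ : X => up 1) = fun _ => up 1 := fun e => by
      funext z
      simp [loc0]
    refine ⟨fun e _ => by rw [h1]; exact contDiffOn_const, ?_⟩
    funext x i
    rw [dbar0, h1, dzb]
    simp
  rw [h0]
  refine (finrank_eq_one_iff_of_nonzero' ⟨_, hmem⟩ ?_).2 ?_
  · intro h
    have h1 := congrArg (fun s : H0 (OX X) 0 0 => dw ((s : X → EuclideanSpace ℂ (Fin 1)) x₀)) h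
    simp at h1
  · rintro ⟨s, hs⟩
    obtain ⟨h1, h2⟩ := mem_H0_OX.1 hs
    refine ⟨dw (s x₀), Subtype.ext ?_⟩
    funext x
    have h3 : dw (s x) = dw (s x₀) := eq_of_dbar0 (u := fun x => dw (s x)) (reg0_clm dw h1) (by
      funext y i
      rw [dbar0_clm dw ((h1.at y).of_le (by simp)), h2]
      simp) x x₀
    change dw (s x₀) • up 1 = s x
    rw [← up_dw (s x), h3, ← map_smul]
    simp

/-- `χ(𝒪) = 0` if `p_g = 0` and `h¹(𝒪) = 1` -/
theorem chi_OX (hS : SerreStmt X) (hpg : PgZero X) (h : h1 (OX X) 0 0 = 1) :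
    chi (OX X) 0 0 = 0 := by
  rw [chi, h0_OX, h2_OX hS hpg, h]
  simp

end compact

end Vale.Agent.P267.H682
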