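import Vale.Agent.P267.H682.Surf
import Vale.Agent.P267.H439.DictD
import Vale.Agent.P267.H983.SerBun

/-!
# P267, package SERRE / SURF-GLUE (helper682): Serre duality for `K` in terms of scalar forms

`sl1X_of`: the separation statement `(SL1)` for the bundle of transition matrices of `K`
gives `H469.SL1X X`.
-/

set_option linter.unusedSectionVars false

open scoped Manifold ContDiff ComplexConjugate Matrix
open Set Filter Topology MeasureTheory

noncomputable section

namespace Vale.Agent.P267.H682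

open Vale.Agent.P267.FL Vale.Agent.P267.H983
open Vale.Agent.P267.RR (FinAt SB Bun Kern PS A0 A1 A2 D0 D1 OX)

variable {X : Type} [TopologicalSpace X] [ChartedSpace C2 X] [IsManifold 𝓘(ℂ, C2) ω X]

/-- the frame of the trivial bundle -/
abbrev tf (A : FinAt X) : H439.LFr A (LB.triv (X := X) (0 : Fin 1)) 0 := H439.trivFr A 0

theorem isHol_triv : (LB.triv (X := X) (0 : Fin 1)).IsHol 0 := by
  rw [lb_eq_OX (LB.triv (X := X) (0 : Fin 1))]
  exact isHol_OX

/-- `K` and the trivial bundle are dual to each other -/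
theorem sd_K (A : FinAt X) : SD ((tf A).bun 1) ((tf A).bun 0) 1 := by
  refine ⟨by simp, fun a b z hz => ?_⟩
  rw [H439.trivFr_E_zero, H439.trivFr_E]
  simp only [Matrix.transpose_smul, Matrix.transpose_one, Matrix.mul_one, smul_smul, zpow_neg,
    zpow_one]
  rw [mul_inv_cancel₀ (FinAt.J_det_ne hz), one_smul]

theorem cfv_single (v : EuclideanSpace ℂ (Fin 1)) :
    H439.cfv (EuclideanSpace.single (0 : Fin 1) (1 : ℂ)) v = v 0 := by
  simp [H439.cfv]

theorem c1_tf (A : FinAt X) {κ : ℤ} {w : X → Fin 2 → ℂ} {i : Fin A.N} {z : C2} (hz : z ∈ A.O i)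
    (p : Fin 2) (k : Fin 1) :
    (tf A).c1 κ (fun x j => up (w x j)) i z p k = loc1 κ (A.e i) w z p := by
  rw [(tf A).c1_of hz]
  have h : (fun (y : X) (k : Fin 2) => H439.cfv ((tf A).t i y) (up (w y k))) = w := by
    funext y k
    exact cfv_single _
  rw [h]

theorem mem_A1_up {κ : ℤ} {w : X → Fin 2 → ℂ} (hw : Reg1 ∞ κ w) :
    (fun x j => up (w x j)) ∈ A1 (LB.triv (X := X) (0 : Fin 1)) κ := by
  refine ⟨reg1_clm up hw, ?_⟩
  rw [lb_eq_OX (LB.triv (X := X) (0 : Fin 1))]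
  exact sec1_OX _

theorem exists_up1 {κ : ℤ} (η : A1 (LB.triv (X := X) (0 : Fin 1)) κ) :
    ∃ (a : X → Fin 2 → ℂ) (ha : Reg1 ∞ κ a), η = ⟨fun x j => up (a x j), mem_A1_up ha⟩ := by
  refine ⟨fun x j => dw (η.1 x j), reg1_clm dw η.2.1, Subtype.ext ?_⟩
  funext x j
  exact (up_dw _).symm

theorem db1_up {κ : ℤ} {w : X → Fin 2 → ℂ} (hw : Reg1 ∞ κ w) :
    (LB.triv (X := X) (0 : Fin 1)).db1 0 κ (fun x j => up (w x j)) =
      fun x => up (dbar1 κ w x) := by
  rw [lb_eq_OX (LB.triv (X := X) (0 : Fin 1)), db1_OX]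
  funext x
  exact dbar1_clm up ((hw.at x).of_le (by simp))

theorem db0_up {κ : ℤ} {s : X → ℂ} (hs : Reg0 ∞ κ s) :
    (LB.triv (X := X) (0 : Fin 1)).db0 0 κ (fun x => up (s x)) =
      fun x j => up (dbar0 κ s x j) := by
  rw [lb_eq_OX (LB.triv (X := X) (0 : Fin 1)), db0_OX]
  funext x j
  exact dbar0_clm up ((hs.at x).of_le (by simp)) j

theorem d1L_up {κ : ℤ} {w : X → Fin 2 → ℂ} (hw : Reg1 ∞ κ w) :
    H439.d1L isHol_triv κ ⟨fun x j => up (w x j), mem_A1_up hw⟩ = 0 ↔ dbar1 κ w = 0 := by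
  constructor
  · intro h
    have h1 := congrArg Subtype.val h
    rw [H439.d1L_coe, db1_up hw] at h1
    funext x
    have h2 := congrArg dw (congrFun h1 x)
    simpa using h2
  · intro h
    apply Subtype.ext
    rw [H439.d1L_coe, db1_up hw, h]
    funext x
    simp

theorem loc2_wedge (e : Ch X) (a w : X → Fin 2 → ℂ) (z : C2) :
    loc2 1 e (fun x => a x 0 * w x 1 - a x 1 * w x 0) z =
      loc1 0 e a z 0 * loc1 1 e w z 1 - loc1 0 e a z 1 * loc1 1 e w z 0 := by
  simp only [loc1, loc2, smul_eq_mul, Fin.sum_univ_two, zpow_zero, zpow_one, one_mul]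
  rw [Matrix.det_fin_two (jac e (e.symm z)), map_sub, map_mul, map_mul]
  ring

theorem reg2_wedge {w a : X → Fin 2 → ℂ} (hw : Reg1 ∞ 1 w) (ha : Reg1 ∞ 0 a) :
    Reg2 ∞ 1 fun x => a x 0 * w x 1 - a x 1 * w x 0 := by
  intro e he
  have h1 : loc2 1 e (fun x => a x 0 * w x 1 - a x 1 * w x 0) = fun z =>
      loc1 0 e a z 0 * loc1 1 e w z 1 - loc1 0 e a z 1 * loc1 1 e w z 0 :=
    funext fun z => loc2_wedge e a w z
  rw [h1]
  have h2 := fun i => contDiffOn_pi.1 (ha e he) i
  have h3 := fun i => contDiffOn_pi.1 (hw e he) i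
  exact ((h2 0).mul (h3 1)).sub ((h2 1).mul (h3 0))

/-- the pairing is an integral over `X` -/
theorem pr_tf [CompactSpace X] [T2Space X] (A : FinAt X) {w a : X → Fin 2 → ℂ}
    (hw : Reg1 ∞ 1 w) (ha : Reg1 ∞ 0 a) :
    intX (fun x => a x 0 * w x 1 - a x 1 * w x 0) =
      -4 * (sd_K A).dp1.pr ((tf A).c1 1 fun x j => up (w x j))
        ((tf A).c1 0 fun x j => up (a x j)) := by
  rw [H439.intX_finAt A (reg2_wedge hw ha), DP.pr_def, Finset.mul_sum, Finset.mul_sum]
  refine Finset.sum_congr rfl fun i _ => ?_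
  rw [← integral_const_mul, ← integral_const_mul]
  refine integral_congr_ae (Eventually.of_forall fun z => ?_)
  simp only
  by_cases hz : z ∈ A.O i
  · have hx := (A.e i).map_target hz.1
    have h1 : (sd_K A).dp1.β ((tf A).c1 1 (fun x j => up (w x j)) i z)
        ((tf A).c1 0 (fun x j => up (a x j)) i z) =
        loc1 1 (A.e i) w z 0 * loc1 0 (A.e i) a z 1 -
          loc1 1 (A.e i) w z 1 * loc1 0 (A.e i) a z 0 := by
      change β1 1 _ _ = _
      rw [β1_apply, β0_apply, β0_apply]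
      simp only [Matrix.one_mulVec, dotProduct, Finset.univ_unique,
        Finset.sum_singleton, Fin.default_eq_zero, c1_tf A hz]
    rw [h1, loc2_wedge]
    ring
  · rw [show A.r i z = 0 from if_neg hz]
    simp

/-- the separation statement `(SL1)` for `K` -/
theorem sl1X_of [CompactSpace X] [T2Space X] (A : FinAt X)
    (H : ∀ w : ((tf A).bun 1).sb1.Sec, ((tf A).bun 1).d1 w = 0 →
      (∀ η : ((tf A).bun 0).sb1.Sec, ((tf A).bun 0).d1 η = 0 → (sd_K A).dp1.pr w.1 η.1 = 0) →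
        ∃ u, ((tf A).bun 1).d0 u = w) : H469.SL1X X := by
  intro w hw hc ho
  obtain ⟨u, hu⟩ := H ((tf A).eq1 1 ⟨_, mem_A1_up hw⟩)
    (by rw [← (tf A).eq2_db1 1 isHol_triv, (d1L_up hw).2 hc, map_zero])
    (by
      intro η hη
      obtain ⟨a, ha, h1⟩ := exists_up1 (((tf A).eq1 0).symm η)
      have h2 : η = (tf A).eq1 0 ⟨fun x j => up (a x j), mem_A1_up ha⟩ := by
        rw [← h1, LinearEquiv.apply_symm_apply]
      have h3 : dbar1 0 a = 0 := by
        rw [h2, ← (tf A).eq2_db1 0 isHol_triv, LinearEquiv.map_eq_zero_iff] at hη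
        exact (d1L_up ha).1 hη
      have h4 := pr_tf A hw ha
      rw [ho a ha h3] at h4
      have h5 : (sd_K A).dp1.pr ((tf A).c1 1 fun x j => up (w x j))
          ((tf A).c1 0 fun x j => up (a x j)) = 0 := by
        have := h4.symm
        simpa using this
      rw [h2]
      exact h5)
  obtain ⟨s, rfl⟩ := ((tf A).eq0 1).surjective u
  rw [← (tf A).eq1_db0 1 isHol_triv] at hu
  have h1 := congrArg Subtype.val (((tf A).eq1 1).injective hu)
  rw [H439.d0L_coe] at h1
  have hs : Reg0 ∞ 1 fun x => dw (s.1 x) := reg0_clm dw s.2.1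
  refine ⟨fun x => dw (s.1 x), hs, ?_⟩
  have h2 : s.1 = fun x => up (dw (s.1 x)) := by
    funext x
    exact (up_dw _).symm
  rw [h2, db0_up hs] at h1
  funext x j
  have h3 := congrArg dw (congrFun (congrFun h1 x) j)
  simpa using h3

end Vale.Agent.P267.H682
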