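import Vale.Agent.P267.H682.Closed
import Vale.Agent.P267.H456.Assembly
import Vale.Agent.P267.H175.RBetti
import Vale.Agent.P267.H868.B1
import Vale.Agent.P267.H417.XMK
import Vale.Agent.P267.H824.Fin
import Vale.Agent.P267.H399.LBCurv
import Vale.Agent.P267.H622.CovInt
import Vale.Agent.P267.H556.CovTwist
import Vale.Agent.P267.H857.Betti469
import Vale.Agent.P267.H469.Sd

/-!
# P267, package SURF-GLUE (helper682): `Asm.SurfThm`

`surfThm : SurfInputs → Asm.SurfThm`. The inputs are the statements of other packages.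
-/

set_option linter.unusedSectionVars false

open scoped Manifold ContDiff ComplexConjugate Matrix
open Set Filter Topology

noncomputable section

namespace Vale.Agent.P267.H682

open Vale.Agent.P267.FL Vale.Agent.P267.H158 Vale.Agent.P267.XT
open Vale.Agent.P267.RR (h0 h1 h2 chi OX isec IsCanon FiniteStmt SerreStmt RRStmt NoetherStmt
  h10 h11 h12 chiOm)
open Vale.Agent.P267.H469 (calcH)
open Vale.Agent.P267.BlockC (ALB pair ExactTwo SurfIn)

/-! ### inputs -/

/-- Serre duality for the trivial bundle, `κ = 1`, degree `1`, in functional form (983, 285, 439) -/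
def SL1Thm : Prop :=
  ∀ (X : Type) [TopologicalSpace X] [T2Space X] [CompactSpace X] [ConnectedSpace X]
    [ChartedSpace C2 X] [IsManifold 𝓘(ℂ, C2) ω X], H469.SL1X X

/-- Serre duality for `Ω¹` (439, 285, 983) -/
def SerreOmThm : Prop :=
  ∀ (X : Type) [TopologicalSpace X] [T2Space X] [CompactSpace X] [ConnectedSpace X]
    [ChartedSpace C2 X] [IsManifold 𝓘(ℂ, C2) ω X], h12 X = h10 X

/-! ### Betti numbers -/

section betti

variable {X : Type} [TopologicalSpace X] [T2Space X] [CompactSpace X] [ConnectedSpace X]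
  [ChartedSpace C2 X] [IsManifold 𝓘(ℂ, C2) ω X] {h : X → Matrix (Fin 2) (Fin 2) ℂ}

/-- `b_1` in the sense of the statement is `dim H^1_dR` of the calculus of H469 -/
theorem betti1 (hh : IsHerm h) {n : ℕ} (hn : BettiSucc X 0 n) :
    Module.finrank ℂ (calcH hh).H1 = n := (H857.finrank_H1 hn).2

/-- the same for `b_2` -/
theorem betti2 (hh : IsHerm h) {n : ℕ} (hn : BettiSucc X 1 n) :
    Module.finrank ℂ (calcH hh).H2 = n := (H857.finrank_H2 hn).2

end betti

/-! ### coverings -/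

section cov

variable {X : Type} [TopologicalSpace X] [T2Space X] [CompactSpace X]
  [ChartedSpace C2 X] [IsManifold 𝓘(ℂ, C2) ω X] {hh : C(X, UnitAddCircle)} {m : ℕ} [NeZero m]

/-- the pull back of a line bundle to the `m`-fold cover -/
def pullALB (m : ℕ) [NeZero m] (K : ALB X) : ALB (CovM hh m) := ⟨K.ι, chartMap_pM.lb K.L⟩

theorem isCanon_pull {K : ALB X} (hK : IsCanon K.L) :
    IsCanon (pullALB (hh := hh) m K).L := by
  obtain ⟨σ, h1, h2, h3⟩ := hK
  exact ⟨fun x => σ (CovM.p x), chartMap_pM.reg0_comp h1, chartMap_pM.lb_sec h2, fun x => h3 _⟩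

theorem isec_pull (L L' : ALB X) :
    isec (pullALB (hh := hh) m L).L (pullALB (hh := hh) m L').L = m * isec L.L L'.L := by
  have e1 : ((pullALB (hh := hh) m L).L.curv).wedge (pullALB (hh := hh) m L').L.curv =
      fun x => (L.L.curv.wedge L'.L.curv) (CovM.p x) := by
    funext x
    change (chartMap_pM.lb L.L).curv.wedge (chartMap_pM.lb L'.L).curv x = _
    rw [ChartMap.lb_curv, ChartMap.lb_curv, wedge_pull2]
  have h1 : Reg2 0 1 (L.L.curv.wedge L'.L.curv) :=
    Reg2.of_le (H469.wedge_mem L.L.curv_smooth L'.L.curv_smooth) (by simp)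
  rw [isec, isec, e1, intX_comp_pM h1]
  ring

theorem isec_comm' {Y : Type} [TopologicalSpace Y] [ChartedSpace C2 Y] (L L' : ALB Y) :
    isec L.L L'.L = isec L'.L L.L := by
  rw [isec, isec]
  congr 2
  funext x
  simp only [TwoF.wedge]
  ring

end cov

/-! ### `H^1_dR(X_m)` -/

section b1

variable {M : Type} [TopologicalSpace M] [ChartedSpace C2 M] [IsManifold 𝓘(ℂ, C2) ω M]
  {D : XTData M} [ConnectedSpace M]
variable {Y : Type} [TopologicalSpace Y] [T2Space Y] [CompactSpace Y] [ConnectedSpace Y]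
  [ChartedSpace C2 Y] [IsManifold 𝓘(ℂ, C2) ω Y] {m : ℕ} {q : M → Y}

/-- `dim H^1_dR(X_m; ℂ) = 1` -/
theorem finrank_H1 (hq : H824.IsQuot D m q) (hm : 0 < m) (I : H868.TwIn D m)
    {h : Y → Matrix (Fin 2) (Fin 2) ℂ} (hh : IsHerm h) : Module.finrank ℂ (calcH hh).H1 = 1 := by
  set θ : H469.Om1 Y := (⟨(H868.theta hq).f10, (H868.theta_smooth hq).s10⟩,
    ⟨(H868.theta hq).f01, (H868.theta_smooth hq).s01⟩) with hθ
  have hθc : H469.D1 θ = 0 := by
    have h1 := H868.theta_closed hq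
    have h2 : H469.toF (H469.D1 θ) = 0 := h1
    refine Prod.ext (Subtype.ext ?_) (Prod.ext (Subtype.ext ?_) (Subtype.ext ?_))
    · exact congrArg TwoF.f20 h2
    · exact congrArg TwoF.f11 h2
    · exact congrArg TwoF.f02 h2
  set x : LinearMap.ker (calcH hh).d1 := ⟨θ, hθc⟩
  have hne : (Submodule.Quotient.mk x : (calcH hh).H1) ≠ 0 := by
    intro h0
    rw [Submodule.Quotient.mk_eq_zero] at h0
    obtain ⟨u, hu⟩ := h0
    have hu' : H469.D0 u = θ := hu
    refine H868.desc_dbarf_not_exact hq hm (u : Y → ℂ) u.2 ?_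
    exact congrArg (fun A : H469.Om1 Y => (A.2 : Y → Fin 2 → ℂ)) hu'
  rw [finrank_eq_one_iff_of_nonzero' _ hne]
  intro y
  obtain ⟨⟨a, ha⟩, rfl⟩ := Submodule.Quotient.mk_surjective _ y
  obtain ⟨t, u, hu, h1⟩ := H868.closed_one_Y hq hm I (ofOm1_smooth a) (B := ofOm1 a) (by
    rw [← toF_D1]
    have ha' : H469.D1 a = 0 := ha
    rw [ha']
    rfl)
  refine ⟨t, ?_⟩
  rw [← Submodule.Quotient.mk_smul, Submodule.Quotient.eq]
  refine ⟨-⟨u, hu⟩, ?_⟩
  change H469.D0 (-⟨u, hu⟩) = t • θ - a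
  rw [map_neg]
  have h10 : (a.1 : Y → Fin 2 → ℂ) = t • (H868.theta hq).f10 + del0 u := congrArg OneF.f10 h1
  have h01 : (a.2 : Y → Fin 2 → ℂ) = t • (H868.theta hq).f01 + dbar0 0 u := congrArg OneF.f01 h1
  refine Prod.ext (Subtype.ext ?_) (Subtype.ext ?_)
  · change -(del0 u) = t • (H868.theta hq).f10 - (a.1 : Y → Fin 2 → ℂ)
    rw [h10]; abel
  · change -(dbar0 0 u) = t • (H868.theta hq).f01 - (a.2 : Y → Fin 2 → ℂ)
    rw [h01]; abel

end b1

/-! ### the theorem -/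

section main

variable (hRR : RR.RRBlock) (hSL : SL1Thm) (hOm : SerreOmThm)

variable {X : Type} [TopologicalSpace X] [T2Space X] [CompactSpace X] [ConnectedSpace X]
  [ChartedSpace C2 X] [IsManifold 𝓘(ℂ, C2) ω X] {n : ℕ}

include hRR hSL hOm in
/-- the data on `X` -/
theorem dataX (hX : IsMinimalVII X n) {g : X → Matrix (Fin 2) (Fin 2) ℂ} (hg : IsHerm g) :
    VIIData hg := by
  obtain ⟨h1, h2, h3, h4⟩ := hRR X
  exact ⟨h1, h2, h3, h4, pgZero_of_kodaira hX.kod, betti1 hg hX.b1, H469.SD21_of hg (hSL X), hOm X⟩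

include hRR hSL hOm in
/-- `K·K = -b_2(X)` -/
theorem kkX (hX : IsMinimalVII X n) {g : X → Matrix (Fin 2) (Fin 2) ℂ} (hg : IsHerm g)
    (K : ALB X) (hK : IsCanon K.L) : isec K.L K.L = -(n : ℂ) := by
  rw [(dataX hRR hSL hOm hX hg).kk K hK, betti2 hg hX.b2]

theorem isQuot_p {hh : C(X, UnitAddCircle)} (D : XTData (Cov hh))
    (hγ : ∀ x, D.γ x = Cov.γ x) : H824.IsQuot D (1 : ℕ) (Cov.p : Cov hh → X) where
  cm := chartMap_p
  surj := Cov.surjective_p
  sh x := by
    have h := H824.sh_eq_shift D hγ (1 : ℤ) x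
    simp only [Nat.cast_one]
    rw [h]
    exact (Cov.p_eq_iff.2 ⟨1, rfl⟩).symm
  fib x y h := by
    obtain ⟨k, hk⟩ := Cov.p_eq_iff.1 h
    exact ⟨k, by rw [H824.sh_eq_shift D hγ, Nat.cast_one, one_mul]; exact hk⟩

include hRR hSL hOm in
/-- vanishing of Floquet sections of `K` -/
theorem noFloquetK (hX : IsMinimalVII X n) (hN : Asm.Nef X) (B : Asm.Base X) :
    B.D.NoFloquetK := by
  refine H417.noFloquetK (H417.isQuo_cov B.γ_eq) ?_ ?_
  · intro ι _ _ LK a ha hK s hs hs0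
    exact hN ι ι LK a LK ha hK s hs hs0
  · intro ι _ _ LK hK
    have h := kkX hRR hSL hOm hX B.g_herm ⟨ι, LK⟩ hK
    have h' : RR.isec LK LK = -(n : ℂ) := h
    rw [h']
    have := hX.pos
    simpa using this

include hRR hSL hOm in
/-- the data on `X_m` -/
theorem dataM (hX : IsMinimalVII X n) (hN : Asm.Nef X) (B : Asm.Base X) (m : ℕ) [NeZero m] :
    ConnectedSpace (CovM B.hh m) ∧ ∀ [ConnectedSpace (CovM B.hh m)]
      {h : CovM B.hh m → Matrix (Fin 2) (Fin 2) ℂ} (hh : IsHerm h), VIIData hh := by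
  have hlc : LocallyConnectedSpace X := ChartedSpace.locallyConnectedSpace C2 X
  have hc1 : ConnectedSpace (Cov B.hh) := Cov.connectedSpace B.prim
  have hc2 : ConnectedSpace (CovM B.hh m) := CovM.connectedSpace B.prim m
  refine ⟨hc2, ?_⟩
  intro _ h hh
  obtain ⟨h1, h2, h3, h4⟩ := hRR (CovM B.hh m)
  obtain ⟨k1, k2, k3, k4⟩ := hRR X
  have hK := noFloquetK hRR hSL hOm hX hN B
  have hq := isQuot_p B.D B.γ_eq
  have hqm := H824.isQuot_toM B.D B.γ_eq m
  obtain ⟨N, ⟨K⟩⟩ := H662.exists_KBun (X := X)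
  have hcan : RR.IsCanon K.L := ⟨K.σ, K.sm, K.sec, K.ne⟩
  have hHF := (dataX hRR hSL hOm hX B.g_herm).holFacts
  have hm : 0 < m := NeZero.pos m
  have hY := H868.holFacts_of_quot B.D hq k1 k2 k3 hHF K.L hcan hK hm hqm h2
  have I := H868.twIn_of B.D hq k1 k2 k3 hHF K.L hcan hK hm
  exact ⟨h1, h2, h3, h4, hY.pg, finrank_H1 hqm hm I hh, H469.SD21_of hh (hSL _), hOm _⟩

include hRR hSL hOm in
/-- the inputs of H824 on `X_m` -/
theorem rrIn (hX : IsMinimalVII X n) (hN : Asm.Nef X) (B : Asm.Base X) (m : ℕ) [NeZero m] :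
    H824.RRIn (CovM B.hh m) := by
  obtain ⟨hc, hD⟩ := dataM hRR hSL hOm hX hN B m
  have hgM : IsHerm (fun x : CovM B.hh m => B.g (CovM.p x)) := chartMap_pM.isHerm_comp B.g_herm
  have D := hD hgM
  refine ⟨D.fin, D.serre, D.rr, D.chiO, ?_⟩
  obtain ⟨r, ⟨K₀⟩⟩ := H662.exists_KBun (X := CovM B.hh m)
  exact ⟨⟨Fin r, K₀.L⟩, K₀.σ, K₀.sm, K₀.sec, K₀.ne⟩

include hRR hSL hOm in
/-- **`SurfThm`** for one surface -/
theorem surfIn (hX : IsMinimalVII X n) (hN : Asm.Nef X) (B : Asm.Base X) (m : ℕ) [NeZero m] :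
    SurfIn (CovM B.hh m) (m * n) := by
  obtain ⟨hc, hD⟩ := dataM hRR hSL hOm hX hN B m
  have hgM : IsHerm (fun x : CovM B.hh m => B.g (CovM.p x)) := chartMap_pM.isHerm_comp B.g_herm
  have D := hD hgM
  obtain ⟨N, hN2⟩ := H175.exists_betti2 (CovM B.hh m)
  have hrank := betti2 hgM hN2
  -- a canonical bundle on `X`
  obtain ⟨r, ⟨K₀⟩⟩ := H662.exists_KBun (X := X)
  have hcan : RR.IsCanon K₀.L := ⟨K₀.σ, K₀.sm, K₀.sec, K₀.ne⟩
  set K : ALB X := ⟨Fin r, K₀.L⟩ with hK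
  have e1 := D.kk (pullALB m K) (isCanon_pull hcan)
  rw [isec_pull, kkX hRR hSL hOm hX B.g_herm K hcan, hrank] at e1
  have e2 : N = m * n := by
    have e3 : ((N : ℕ) : ℂ) = ((m * n : ℕ) : ℂ) := by
      push_cast
      linear_combination e1
    exact_mod_cast e3
  subst e2
  refine ⟨hN2, D.neg, ?_, ?_⟩
  · exact H556.rr (H556.covTwist m B.D B.f_eq B.g B.g_herm B.h_eq) D.serre D.rr D.chiO D.pg
      fun L => exists_isHol D.fin D.serre D.pg L.L
  · intro K' hK'
    rw [D.kk K' hK', hrank]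

include hRR hSL hOm in
/-- **`SurfThm`** -/
theorem surfThm : Asm.SurfThm := by
  intro X _ _ _ _ _ _ n hX hN B m _
  exact surfIn hRR hSL hOm hX hN B m

end main

end Vale.Agent.P267.H682
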